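import Crest.Agent.Lib.SnakyC.Game

/-!
Zone certificates for the Snaky game.  Sets of cells are bitmasks (natural numbers).
`Valid n S Z`: for all Maker sets containing `S` and all Breaker sets, both missing `Z`,
Maker wins with at most `n` further claims.
-/

set_option autoImplicit false

open Crest.CombinatoricsR.PolyominoGame

namespace Crest.Agent.Lib.SnakyC

/-- The cell with index `i`. -/
def cellOf (i : ℕ) : Cell := (((i % 32 : ℕ) : ℤ) - 16, ((i / 32 : ℕ) : ℤ) - 16)

lemma cellOf_inj {i j : ℕ} (h : cellOf i = cellOf j) : i = j := by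
  simp only [cellOf, Prod.mk.injEq, sub_left_inj, Nat.cast_inj] at h
  omega

/-- See the module docstring. -/
def Valid (n S Z : ℕ) : Prop :=
  ∀ M B : Finset Cell,
    (∀ i, S.testBit i = true → cellOf i ∈ M) →
    (∀ i, Z.testBit i = true → cellOf i ∉ M ∧ cellOf i ∉ B) →
    Win n M B

lemma Valid.mono {n n' S Z : ℕ} (h : n ≤ n') (hv : Valid n S Z) : Valid n' S Z :=
  fun M B hS hZ => win_mono h M B (hv M B hS hZ)

/-- The trivially valid entry, used for bad data. -/
lemma valid_junk : Valid 0 1 1 := by
  intro M B hS hZ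
  have h1 : Nat.testBit 1 0 = true := by decide
  exact absurd (hS 0 h1) (hZ 0 h1).1

/-- One-bit mask. -/
def bit (c : ℕ) : ℕ := Nat.shiftLeft 1 c

lemma testBit_bit (c i : ℕ) : (bit c).testBit i = decide (c = i) := by
  have : bit c = 2 ^ c := by
    simp [bit, Nat.shiftLeft_eq]
  rw [this, Nat.testBit_two_pow]

/-- Mask with bit `c` removed. -/
def clr (S c : ℕ) : ℕ := Nat.xor S (Nat.land S (bit c))

lemma testBit_clr (S c i : ℕ) : (clr S c).testBit i = (S.testBit i && decide (c ≠ i)) := by
  have h1 : clr S c = S ^^^ (S &&& bit c) := rfl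
  rw [h1, Nat.testBit_xor, Nat.testBit_and, testBit_bit]
  by_cases h : c = i <;> by_cases h2 : S.testBit i <;> simp [h, h2]

/-- Masks of the eight orientations of Snaky at the lower-left corner of the bounding box, packed
with 256 bits per orientation. -/
def lmTable : ℕ := 0x2000000020000000200000003000000010000000000000000000000000000000100000003000000020000000200000002000000000000000000000000000000010000000100000001000000030000000200000000000000000000000000000002000000030000000100000001000000010000000000000000000000000000000000000000000000000000001e00000003000000000000000000000000000000000000000000000000000000030000001e0000000000000000000000000000000000000000000000000000000f00000018000000000000000000000000000000000000000000000000000000180000000f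

/-- The mask of orientation `g`. -/
def lm (g : ℕ) : ℕ :=
  Nat.land (Nat.shiftRight lmTable (Nat.shiftLeft g 8)) 115792089237316195423570985008687907853269984665640564039457584007913129639935

lemma cellOf_off (a dx dy : ℕ) (h : a % 32 + dx < 32) :
    cellOf (a + (dx + 32 * dy)) = ((((a % 32 : ℕ) : ℤ) + dx - 16), (((a / 32 : ℕ) : ℤ) + dy - 16)) := by
  have h1 : (a + (dx + 32 * dy)) % 32 = a % 32 + dx := by omega
  have h2 : (a + (dx + 32 * dy)) / 32 = a / 32 + dy := by omega
  simp only [cellOf, h1, h2]
  push_cast
  rfl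

lemma mem_of_bit {M : Finset Cell} {m a : ℕ}
    (h : ∀ i, (m <<< a).testBit i = true → cellOf i ∈ M) {dx dy : ℕ}
    (hb : m.testBit (dx + 32 * dy) = true) (hw : a % 32 + dx < 32) :
    ((((a % 32 : ℕ) : ℤ) + dx - 16), (((a / 32 : ℕ) : ℤ) + dy - 16)) ∈ M := by
  rw [← cellOf_off a dx dy hw]
  apply h
  rw [Nat.testBit_shiftLeft]
  simp [hb]

lemma copy_0 (a : ℕ) (hw : a % 32 + 4 < 32) (M : Finset Cell)
    (h : ∀ i, (lm 0 <<< a).testBit i = true → cellOf i ∈ M) : ContainsCopy (M : Set Cell) := by
  refine ⟨(((a % 32 : ℕ) : ℤ) - 16 + 0, ((a / 32 : ℕ) : ℤ) - 16 + 0), 1, 1, by norm_num, by norm_num, Or.inl ?_⟩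
  intro p hp
  simp only [snaky, Finset.mem_insert, Finset.mem_singleton] at hp
  rcases hp with rfl | rfl | rfl | rfl | rfl | rfl
  · have := mem_of_bit (dx := 0) (dy := 0) h (by decide) (by omega)
    rw [Finset.mem_coe]
    convert this using 2 <;> push_cast <;> ring
  · have := mem_of_bit (dx := 1) (dy := 0) h (by decide) (by omega)
    rw [Finset.mem_coe]
    convert this using 2 <;> push_cast <;> ring
  · have := mem_of_bit (dx := 2) (dy := 0) h (by decide) (by omega)
    rw [Finset.mem_coe]
    convert this using 2 <;> push_cast <;> ring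
  · have := mem_of_bit (dx := 3) (dy := 0) h (by decide) (by omega)
    rw [Finset.mem_coe]
    convert this using 2 <;> push_cast <;> ring
  · have := mem_of_bit (dx := 3) (dy := 1) h (by decide) (by omega)
    rw [Finset.mem_coe]
    convert this using 2 <;> push_cast <;> ring
  · have := mem_of_bit (dx := 4) (dy := 1) h (by decide) (by omega)
    rw [Finset.mem_coe]
    convert this using 2 <;> push_cast <;> ring

lemma copy_1 (a : ℕ) (hw : a % 32 + 4 < 32) (M : Finset Cell)
    (h : ∀ i, (lm 1 <<< a).testBit i = true → cellOf i ∈ M) : ContainsCopy (M : Set Cell) := by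
  refine ⟨(((a % 32 : ℕ) : ℤ) - 16 + 0, ((a / 32 : ℕ) : ℤ) - 16 + 1), 1, -1, by norm_num, by norm_num, Or.inl ?_⟩
  intro p hp
  simp only [snaky, Finset.mem_insert, Finset.mem_singleton] at hp
  rcases hp with rfl | rfl | rfl | rfl | rfl | rfl
  · have := mem_of_bit (dx := 0) (dy := 1) h (by decide) (by omega)
    rw [Finset.mem_coe]
    convert this using 2 <;> push_cast <;> ring
  · have := mem_of_bit (dx := 1) (dy := 1) h (by decide) (by omega)
    rw [Finset.mem_coe]
    convert this using 2 <;> push_cast <;> ring
  · have := mem_of_bit (dx := 2) (dy := 1) h (by decide) (by omega)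
    rw [Finset.mem_coe]
    convert this using 2 <;> push_cast <;> ring
  · have := mem_of_bit (dx := 3) (dy := 1) h (by decide) (by omega)
    rw [Finset.mem_coe]
    convert this using 2 <;> push_cast <;> ring
  · have := mem_of_bit (dx := 3) (dy := 0) h (by decide) (by omega)
    rw [Finset.mem_coe]
    convert this using 2 <;> push_cast <;> ring
  · have := mem_of_bit (dx := 4) (dy := 0) h (by decide) (by omega)
    rw [Finset.mem_coe]
    convert this using 2 <;> push_cast <;> ring

lemma copy_2 (a : ℕ) (hw : a % 32 + 4 < 32) (M : Finset Cell)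
    (h : ∀ i, (lm 2 <<< a).testBit i = true → cellOf i ∈ M) : ContainsCopy (M : Set Cell) := by
  refine ⟨(((a % 32 : ℕ) : ℤ) - 16 + 4, ((a / 32 : ℕ) : ℤ) - 16 + 0), -1, 1, by norm_num, by norm_num, Or.inl ?_⟩
  intro p hp
  simp only [snaky, Finset.mem_insert, Finset.mem_singleton] at hp
  rcases hp with rfl | rfl | rfl | rfl | rfl | rfl
  · have := mem_of_bit (dx := 4) (dy := 0) h (by decide) (by omega)
    rw [Finset.mem_coe]
    convert this using 2 <;> push_cast <;> ring
  · have := mem_of_bit (dx := 3) (dy := 0) h (by decide) (by omega)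
    rw [Finset.mem_coe]
    convert this using 2 <;> push_cast <;> ring
  · have := mem_of_bit (dx := 2) (dy := 0) h (by decide) (by omega)
    rw [Finset.mem_coe]
    convert this using 2 <;> push_cast <;> ring
  · have := mem_of_bit (dx := 1) (dy := 0) h (by decide) (by omega)
    rw [Finset.mem_coe]
    convert this using 2 <;> push_cast <;> ring
  · have := mem_of_bit (dx := 1) (dy := 1) h (by decide) (by omega)
    rw [Finset.mem_coe]
    convert this using 2 <;> push_cast <;> ring
  · have := mem_of_bit (dx := 0) (dy := 1) h (by decide) (by omega)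
    rw [Finset.mem_coe]
    convert this using 2 <;> push_cast <;> ring

lemma copy_3 (a : ℕ) (hw : a % 32 + 4 < 32) (M : Finset Cell)
    (h : ∀ i, (lm 3 <<< a).testBit i = true → cellOf i ∈ M) : ContainsCopy (M : Set Cell) := by
  refine ⟨(((a % 32 : ℕ) : ℤ) - 16 + 4, ((a / 32 : ℕ) : ℤ) - 16 + 1), -1, -1, by norm_num, by norm_num, Or.inl ?_⟩
  intro p hp
  simp only [snaky, Finset.mem_insert, Finset.mem_singleton] at hp
  rcases hp with rfl | rfl | rfl | rfl | rfl | rfl
  · have := mem_of_bit (dx := 4) (dy := 1) h (by decide) (by omega)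
    rw [Finset.mem_coe]
    convert this using 2 <;> push_cast <;> ring
  · have := mem_of_bit (dx := 3) (dy := 1) h (by decide) (by omega)
    rw [Finset.mem_coe]
    convert this using 2 <;> push_cast <;> ring
  · have := mem_of_bit (dx := 2) (dy := 1) h (by decide) (by omega)
    rw [Finset.mem_coe]
    convert this using 2 <;> push_cast <;> ring
  · have := mem_of_bit (dx := 1) (dy := 1) h (by decide) (by omega)
    rw [Finset.mem_coe]
    convert this using 2 <;> push_cast <;> ring
  · have := mem_of_bit (dx := 1) (dy := 0) h (by decide) (by omega)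
    rw [Finset.mem_coe]
    convert this using 2 <;> push_cast <;> ring
  · have := mem_of_bit (dx := 0) (dy := 0) h (by decide) (by omega)
    rw [Finset.mem_coe]
    convert this using 2 <;> push_cast <;> ring

lemma copy_4 (a : ℕ) (hw : a % 32 + 4 < 32) (M : Finset Cell)
    (h : ∀ i, (lm 4 <<< a).testBit i = true → cellOf i ∈ M) : ContainsCopy (M : Set Cell) := by
  refine ⟨(((a % 32 : ℕ) : ℤ) - 16 + 0, ((a / 32 : ℕ) : ℤ) - 16 + 0), 1, 1, by norm_num, by norm_num, Or.inr ?_⟩
  intro p hp
  simp only [snaky, Finset.mem_insert, Finset.mem_singleton] at hp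
  rcases hp with rfl | rfl | rfl | rfl | rfl | rfl
  · have := mem_of_bit (dx := 0) (dy := 0) h (by decide) (by omega)
    rw [Finset.mem_coe]
    convert this using 2 <;> push_cast <;> ring
  · have := mem_of_bit (dx := 0) (dy := 1) h (by decide) (by omega)
    rw [Finset.mem_coe]
    convert this using 2 <;> push_cast <;> ring
  · have := mem_of_bit (dx := 0) (dy := 2) h (by decide) (by omega)
    rw [Finset.mem_coe]
    convert this using 2 <;> push_cast <;> ring
  · have := mem_of_bit (dx := 0) (dy := 3) h (by decide) (by omega)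
    rw [Finset.mem_coe]
    convert this using 2 <;> push_cast <;> ring
  · have := mem_of_bit (dx := 1) (dy := 3) h (by decide) (by omega)
    rw [Finset.mem_coe]
    convert this using 2 <;> push_cast <;> ring
  · have := mem_of_bit (dx := 1) (dy := 4) h (by decide) (by omega)
    rw [Finset.mem_coe]
    convert this using 2 <;> push_cast <;> ring

lemma copy_5 (a : ℕ) (hw : a % 32 + 4 < 32) (M : Finset Cell)
    (h : ∀ i, (lm 5 <<< a).testBit i = true → cellOf i ∈ M) : ContainsCopy (M : Set Cell) := by
  refine ⟨(((a % 32 : ℕ) : ℤ) - 16 + 0, ((a / 32 : ℕ) : ℤ) - 16 + 4), 1, -1, by norm_num, by norm_num, Or.inr ?_⟩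
  intro p hp
  simp only [snaky, Finset.mem_insert, Finset.mem_singleton] at hp
  rcases hp with rfl | rfl | rfl | rfl | rfl | rfl
  · have := mem_of_bit (dx := 0) (dy := 4) h (by decide) (by omega)
    rw [Finset.mem_coe]
    convert this using 2 <;> push_cast <;> ring
  · have := mem_of_bit (dx := 0) (dy := 3) h (by decide) (by omega)
    rw [Finset.mem_coe]
    convert this using 2 <;> push_cast <;> ring
  · have := mem_of_bit (dx := 0) (dy := 2) h (by decide) (by omega)
    rw [Finset.mem_coe]
    convert this using 2 <;> push_cast <;> ring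
  · have := mem_of_bit (dx := 0) (dy := 1) h (by decide) (by omega)
    rw [Finset.mem_coe]
    convert this using 2 <;> push_cast <;> ring
  · have := mem_of_bit (dx := 1) (dy := 1) h (by decide) (by omega)
    rw [Finset.mem_coe]
    convert this using 2 <;> push_cast <;> ring
  · have := mem_of_bit (dx := 1) (dy := 0) h (by decide) (by omega)
    rw [Finset.mem_coe]
    convert this using 2 <;> push_cast <;> ring

lemma copy_6 (a : ℕ) (hw : a % 32 + 4 < 32) (M : Finset Cell)
    (h : ∀ i, (lm 6 <<< a).testBit i = true → cellOf i ∈ M) : ContainsCopy (M : Set Cell) := by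
  refine ⟨(((a % 32 : ℕ) : ℤ) - 16 + 1, ((a / 32 : ℕ) : ℤ) - 16 + 0), -1, 1, by norm_num, by norm_num, Or.inr ?_⟩
  intro p hp
  simp only [snaky, Finset.mem_insert, Finset.mem_singleton] at hp
  rcases hp with rfl | rfl | rfl | rfl | rfl | rfl
  · have := mem_of_bit (dx := 1) (dy := 0) h (by decide) (by omega)
    rw [Finset.mem_coe]
    convert this using 2 <;> push_cast <;> ring
  · have := mem_of_bit (dx := 1) (dy := 1) h (by decide) (by omega)
    rw [Finset.mem_coe]
    convert this using 2 <;> push_cast <;> ring
  · have := mem_of_bit (dx := 1) (dy := 2) h (by decide) (by omega)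
    rw [Finset.mem_coe]
    convert this using 2 <;> push_cast <;> ring
  · have := mem_of_bit (dx := 1) (dy := 3) h (by decide) (by omega)
    rw [Finset.mem_coe]
    convert this using 2 <;> push_cast <;> ring
  · have := mem_of_bit (dx := 0) (dy := 3) h (by decide) (by omega)
    rw [Finset.mem_coe]
    convert this using 2 <;> push_cast <;> ring
  · have := mem_of_bit (dx := 0) (dy := 4) h (by decide) (by omega)
    rw [Finset.mem_coe]
    convert this using 2 <;> push_cast <;> ring

lemma copy_7 (a : ℕ) (hw : a % 32 + 4 < 32) (M : Finset Cell)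
    (h : ∀ i, (lm 7 <<< a).testBit i = true → cellOf i ∈ M) : ContainsCopy (M : Set Cell) := by
  refine ⟨(((a % 32 : ℕ) : ℤ) - 16 + 1, ((a / 32 : ℕ) : ℤ) - 16 + 4), -1, -1, by norm_num, by norm_num, Or.inr ?_⟩
  intro p hp
  simp only [snaky, Finset.mem_insert, Finset.mem_singleton] at hp
  rcases hp with rfl | rfl | rfl | rfl | rfl | rfl
  · have := mem_of_bit (dx := 1) (dy := 4) h (by decide) (by omega)
    rw [Finset.mem_coe]
    convert this using 2 <;> push_cast <;> ring
  · have := mem_of_bit (dx := 1) (dy := 3) h (by decide) (by omega)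
    rw [Finset.mem_coe]
    convert this using 2 <;> push_cast <;> ring
  · have := mem_of_bit (dx := 1) (dy := 2) h (by decide) (by omega)
    rw [Finset.mem_coe]
    convert this using 2 <;> push_cast <;> ring
  · have := mem_of_bit (dx := 1) (dy := 1) h (by decide) (by omega)
    rw [Finset.mem_coe]
    convert this using 2 <;> push_cast <;> ring
  · have := mem_of_bit (dx := 0) (dy := 1) h (by decide) (by omega)
    rw [Finset.mem_coe]
    convert this using 2 <;> push_cast <;> ring
  · have := mem_of_bit (dx := 0) (dy := 0) h (by decide) (by omega)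
    rw [Finset.mem_coe]
    convert this using 2 <;> push_cast <;> ring

lemma copy_line (g a : ℕ) (hg : g < 8) (hw : a % 32 + 4 < 32) (M : Finset Cell)
    (h : ∀ i, (lm g <<< a).testBit i = true → cellOf i ∈ M) : ContainsCopy (M : Set Cell) := by
  interval_cases g
  · exact copy_0 a hw M h
  · exact copy_1 a hw M h
  · exact copy_2 a hw M h
  · exact copy_3 a hw M h
  · exact copy_4 a hw M h
  · exact copy_5 a hw M h
  · exact copy_6 a hw M h
  · exact copy_7 a hw M h

/-- Leaf rule: final stone at `c` completing the line of orientation `g` at `a`. -/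
lemma valid_leaf (g a c : ℕ) (hg : g < 8) (hw : a % 32 + 4 < 32) :
    Valid 1 (clr (lm g <<< a) c) (bit c) := by
  intro M B hS hZ
  have hc := hZ c (by rw [testBit_bit]; simp)
  refine ⟨cellOf c, hc.1, hc.2, fun x _ _ => ?_⟩
  refine copy_line g a hg hw _ (fun i hi => ?_)
  by_cases hic : i = c
  · subst hic
    exact Finset.mem_insert_self _ _
  · apply Finset.mem_insert_of_mem
    apply hS
    rw [testBit_clr, hi]
    simp [Ne.symm hic]

/-- Rule for a line already complete. -/
lemma valid_won (g a : ℕ) (hg : g < 8) (hw : a % 32 + 4 < 32) :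
    Valid 0 (lm g <<< a) 0 := by
  intro M B hS _
  exact copy_line g a hg hw _ hS

/-- Coverage of Breaker's replies by a family of valid children. -/
def Cov (d S Z I : ℕ) : Prop :=
  ∀ x : Cell, (∀ i, I.testBit i = true → cellOf i ≠ x) →
    ∃ Sj Zj, Valid d Sj Zj ∧ (∀ i, Sj.testBit i = true → S.testBit i = true) ∧
      (∀ i, Zj.testBit i = true → Z.testBit i = true) ∧ (∀ i, Zj.testBit i = true → cellOf i ≠ x)

lemma Cov.first {d S Z : ℕ} (h : Valid d S Z) : Cov d S Z Z :=
  fun _ hx => ⟨S, Z, h, fun _ hi => hi, fun _ hi => hi, hx⟩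

lemma Cov.add {d S Z I d2 S2 Z2 : ℕ} (h : Cov d S Z I) (h2 : Valid d2 S2 Z2) :
    Cov (max d d2) (Nat.lor S S2) (Nat.lor Z Z2) (Nat.land I Z2) := by
  intro x hx
  have hS1 : ∀ i, S.testBit i = true → (Nat.lor S S2).testBit i = true := by
    intro i hi
    show (S ||| S2).testBit i = true
    simp [Nat.testBit_or, hi]
  have hS2 : ∀ i, S2.testBit i = true → (Nat.lor S S2).testBit i = true := by
    intro i hi
    show (S ||| S2).testBit i = true
    simp [Nat.testBit_or, hi]
  have hZ1 : ∀ i, Z.testBit i = true → (Nat.lor Z Z2).testBit i = true := by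
    intro i hi
    show (Z ||| Z2).testBit i = true
    simp [Nat.testBit_or, hi]
  have hZ2 : ∀ i, Z2.testBit i = true → (Nat.lor Z Z2).testBit i = true := by
    intro i hi
    show (Z ||| Z2).testBit i = true
    simp [Nat.testBit_or, hi]
  by_cases hI : ∀ i, I.testBit i = true → cellOf i ≠ x
  · obtain ⟨Sj, Zj, hv, h1, h3, h4⟩ := h x hI
    exact ⟨Sj, Zj, hv.mono (le_max_left _ _), fun i hi => hS1 i (h1 i hi), fun i hi => hZ1 i (h3 i hi), h4⟩
  · push Not at hI
    obtain ⟨i, hi, rfl⟩ := hI
    refine ⟨S2, Z2, h2.mono (le_max_right _ _), hS2, hZ2, ?_⟩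
    intro j hj he
    have := cellOf_inj he
    subst this
    have h5 := hx j (by
      show (I &&& Z2).testBit j = true
      simp [Nat.testBit_and, hi, hj])
    exact h5 rfl

/-- Node rule: Maker plays `m`, any reply is answered by a child whose zone misses it. -/
lemma Cov.node {d S Z m : ℕ} (h : Cov d S Z 0) (hm : Z.testBit m = false) :
    Valid (d + 1) (clr S m) (Nat.lor Z (bit m)) := by
  intro M B hS hZ
  have hZZ : ∀ i, Z.testBit i = true → (cellOf i ∉ M ∧ cellOf i ∉ B) := by
    intro i hi
    apply hZ
    show (Z ||| bit m).testBit i = true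
    simp [Nat.testBit_or, hi]
  have hc := hZ m (by
    show (Z ||| bit m).testBit m = true
    simp [Nat.testBit_or, testBit_bit])
  refine ⟨cellOf m, hc.1, hc.2, fun x hx hx' => ?_⟩
  obtain ⟨Sj, Zj, hv, h1, h3, h4⟩ := h x (by simp)
  apply hv
  · intro i hi
    by_cases him : i = m
    · subst him
      exact Finset.mem_insert_self _ _
    · apply Finset.mem_insert_of_mem
      apply hS
      rw [testBit_clr, h1 i hi]
      simp [Ne.symm him]
  · intro i hi
    have hi' := h3 i hi
    have hne : cellOf i ≠ cellOf m := by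
      intro he
      have := cellOf_inj he
      subst this
      rw [hm] at hi'
      exact absurd hi' (by simp)
    have := hZZ i hi'
    constructor
    · simp [hne, this.1]
    · simp [h4 i hi, this.2]

end Crest.Agent.Lib.SnakyC
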